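import Vale.Agent.P281.R2.H877.PbRes

/-!
# P281: Campana's inequality on projective bundles

`B` is a compact connected complex manifold of dimension `n ≥ 1` with a Kähler metric `w`,
`π : X → B` the projective bundle of a direct sum of line bundles `L_0, …, L_r` on `B`, `r ≥ 1`, `H`
the tautological line bundle, and `Δ` a rational SNC boundary on `X` (coefficients `1` allowed), where
`m Δ` is the divisor of the section `s` of `H^e ⊗ π^*N`: `e - m (r + 1)` is the degree of
`m (K_X + Δ)` on the lines in the fibres of `π`.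

`f : X ⇢ Y` is a meromorphic map, holomorphic on the open subset `V` (embedded by `j`) of `X`, whose
complement has codimension `≥ 2`, and `i : F → V` is a compact connected smooth fibre of `f : V → Y`
(or, more generally, of its Stein factorization), contained in no component of `Δ`. `k := kodF` is
computed with the meromorphic pluricanonical forms of `Y` whose pull-backs to `X` are tensors with
poles at most `m Δ`, and `k ≥ κ(f | Δ)` by (3). The inequality `Ineq` is
`κ(X, K_X + Δ) ≥ κ(F, K_F + Δ|_F) + k`. It holds for all `f` in the following cases.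

1. `e < m (r + 1)`, and the coefficients of `Δ` are `< 1`: moreover `κ(F, K_F + Δ|_F) = -∞` or
   `k = -∞`.
2. `e ≥ m (r + 1)` and the holomorphic sectional curvature of `w` is nonpositive. With 1, the
   inequality holds for all `f` and all `Δ` with coefficients `< 1` on the projective bundles over the
   compact Kähler manifolds of nonpositive holomorphic sectional curvature.
3. `OrbLe`: `κ(Y, K_Y + Γ) ≤ k` if `Γ` is a rational SNC boundary of `Y` and `f : (V, Δ|_V) → (Y, Γ)` is
   a morphism of orbifolds in codimension one, and `κ(f₀ | Δ) ≤ k` for `f₀ : X → Y₀`, where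
   `κ(f₀ | Δ)` is Campana's orbifold base dimension, if `f` is given by a neat model of `f₀`.
-/

open scoped Manifold ContDiff
open Vale.Agent.P281.FS

namespace Vale.Agent.Results.P281.BundlesNonposHSC

open Vale.Agent.P281.R2.H73 (DivB)
open Vale.Agent.P285.H281.FD (Bd IsLB)
open Vale.Agent.P285.H766.PB (IsPB pull)
open Vale.Agent.P272.K (NonposHSC)

/-- the inequality `κ(X, K_X + Δ) ≥ κ(F, K_F + Δ|_F) + k`, where `k` is `kodF` -/
def Ineq (n p d : ℕ) {X V Y F : Type} [TopologicalSpace X] [Mfd n X] [TopologicalSpace V] [Mfd n V]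
    [TopologicalSpace Y] [Mfd p Y] [TopologicalSpace F] [Mfd d F] (Δ : Set X → ℝ) (j : V → X)
    (f : V → Y) (i : F → V) : Prop :=
  kodR (Cm n) (Cm d) (fun t => j (i t)) Δ + kodF n p Δ j f ≤ kodX (Cm n) Δ

theorem result {n r p d : ℕ} (h1 : 1 ≤ n) (hr : 1 ≤ r) (hn : n + r = p + d) {B X V Y F : Type}
    [TopologicalSpace B] [T2Space B] [CompactSpace B] [ConnectedSpace B] [Mfd n B]
    [IsManifold 𝓘(ℂ, Cm n) ω B]
    [TopologicalSpace X] [T2Space X] [CompactSpace X] [ConnectedSpace X] [Mfd (n + r) X]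
    [TopologicalSpace V] [Mfd (n + r) V]
    [TopologicalSpace Y] [T2Space Y] [ConnectedSpace Y] [Mfd p Y]
    [TopologicalSpace F] [T2Space F] [CompactSpace F] [ConnectedSpace F] [Mfd d F]
    (w : Form n B) (hw : Vale.Agent.P272.K.IsKahler w)
    (w' : Form (n + r) X) (hw' : Vale.Agent.P272.K.IsKahler w')
    (L : Fin (r + 1) → Bd B) (hL : ∀ l, IsLB n (L l)) (N : Bd B) (hN : IsLB n N) (H : Bd X)
    (hH : IsLB (n + r) H) (π : X → B) (t : (l : Fin (r + 1)) → H.ι → (L l).ι → X → ℂ)
    (hX : IsPB n r L π H t) (Δ : Set X → ℝ) (m e : ℕ) (hm : 0 < m) (k : Set X → ℕ)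
    (hk : ∀ D, k D = m * Δ D) (s : H.ι × N.ι → X → ℂ)
    (hs : DivB (n + r) k ((H.pow e).mul (pull π N)) s)
    (j : V → X) (f : V → Y) (i : F → V)
    (hi : Setup (Cm (n + r)) (Cm p) (Cm d) Δ j f i) (hinj : Function.Injective i) :
    (e < m * (r + 1) → (∀ D, Δ D < 1) →
      kodR (Cm (n + r)) (Cm d) (fun t => j (i t)) Δ + kodF (n + r) p Δ j f = ⊥ ∧
        Ineq (n + r) p d Δ j f i) ∧
    (m * (r + 1) ≤ e → NonposHSC w → Ineq (n + r) p d Δ j f i) ∧
    OrbLe (Cm (n + r)) (Cm p) Δ j f (kodF (n + r) p Δ j f) :=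
  Vale.Agent.P281.R2.H877.PB.pb_res h1 hr hn hw hw' hL hN hH hX hm hk hs hi hinj

end Vale.Agent.Results.P281.BundlesNonposHSC
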