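import Vale.Agent.P281.R2.H73.FamD2

/-!
# P281: hyperbolic orbifold pairs, families of pairs over hyperbolic orbifold bases, and their covers

`X` is a compact connected complex manifold of dimension `n ≥ 1` with a Kähler metric `w` and a
rational SNC boundary `Δ` (coefficients `1` allowed). Hypothesis (a) or (b):

(a) `OrbHyp`, `b = n`: `Δ ≥ ∑ (1 - 1/μ_i) D_i`, where `∑ D_i` is a reduced simple normal crossings
divisor, `μ_i ∈ {2, 3, ..., ∞}`, and the orbifold `(X, ∑ (1 - 1/μ_i) D_i)` is Brody hyperbolic.

(b) `OverHyp`: `h : X → B` is a surjective holomorphic submersion onto a compact Kähler manifold `B`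
of dimension `b`, `G : B → V` is a holomorphic map to a compact complex manifold, `μ_i ∣ G^*D_i` for
effective divisors `D_i` of `V`, every entire curve in `V` with image in `G(B)` which for each `i` lies
in `D_i` or satisfies `μ_i ∣ g^*D_i` is constant (without divisors: every entire curve with image in
`G(B)` is constant), and `q m (K_X + Δ) = h^*N`, where the line bundle `N` on `B` is positive relative
to `G` or, if `b = n`, `N` is big relative to `G` and `h^*N` is nef relative to `G ∘ h` (for `h = id`:
`K_X + Δ` is nef and big relative to the map `G` to the hyperbolic orbifold).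

1. `κ(X, K_X + Δ) ≥ b`.
2. `Campana n Δ`: the inequality `κ(X, K_X + Δ) ≥ κ(F, K_F + Δ|_F) + k` holds for all meromorphic maps
   `f : X ⇢ Y` and all fibres `F`: `f` is holomorphic on the open subset `Z` (embedded by `j`) of `X`,
   whose complement has codimension `≥ 2`, `i : F → Z` is a compact connected smooth fibre of
   `f : Z → Y` (or, more generally, of its Stein factorization), contained in no component of `Δ`, and
   `k := kodF` is computed with the meromorphic pluricanonical forms of `Y` whose pull-backs to `X` are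
   tensors with poles at most `m Δ`. `OrbLe`: `κ(Y, K_Y + Γ) ≤ k` if `Γ` is a rational SNC boundary of
   `Y` and `f : (Z, Δ|_Z) → (Y, Γ)` is a morphism of orbifolds in codimension one, and `κ(f₀ | Δ) ≤ k`
   for `f₀ : X → Y₀`, where `κ(f₀ | Δ)` is Campana's orbifold base dimension, if `f` is given by a neat
   model of `f₀`.
3. If `b = n`: for every compact connected complex manifold `X'` (not necessarily Kähler) with a
   rational SNC boundary `Δ'` and a meromorphic map `u : X' ⇢ X`, submersive somewhere, which is a
   morphism of orbifolds `(X', Δ') ⇢ (X, Δ)` in codimension one, `κ(X', K_{X'} + Δ') = n` and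
   `Campana n Δ'`.
-/

open scoped Manifold ContDiff
open Vale.Agent.P281.FS

namespace Vale.Agent.Results.P281.HyperbolicPairs

open Vale.Agent.P281.R2.H73.C (OrbHyp IsOrbMap Campana IsMan)
open Vale.Agent.P281.R2.H73.D (OverHyp)

theorem result {n b : ℕ} (h1 : 1 ≤ n) {X X' Z' : Type}
    [TopologicalSpace X] [T2Space X] [CompactSpace X] [ConnectedSpace X] [Mfd n X]
    [TopologicalSpace X'] [T2Space X'] [CompactSpace X'] [ConnectedSpace X'] [Mfd n X']
    [TopologicalSpace Z'] [Mfd n Z'] (mX : IsMan (Cm n) X) (mX' : IsMan (Cm n) X')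
    (mZ' : IsMan (Cm n) Z') (w : Form n X) (hw : Vale.Agent.P272.K.IsKahler w) (Δ : Set X → ℝ)
    (hΔ : IsSNC (Cm n) Δ) (H : b = n ∧ OrbHyp (Cm n) Δ ∨ OverHyp n b w Δ) :
    b ≤ kodX (Cm n) Δ ∧ Campana n Δ ∧
    (b = n → ∀ (Δ' : Set X' → ℝ) (j : Z' → X') (u : Z' → X), IsSNC (Cm n) Δ' →
      IsOrbMap (Cm n) Δ' Δ j u → kodX (Cm n) Δ' = n ∧ Campana n Δ') :=
  Vale.Agent.P281.R2.H73.D.main h1 mX mX' mZ' w hw Δ hΔ H

end Vale.Agent.Results.P281.HyperbolicPairs
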