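import Vale.Agent.P281.R2.H73.Defs
import Vale.Agent.P281.R2.H877.Camp
import Vale.Agent.P281.H723.FS.Fin

/-!
# P281: Campana's inequality on compact Kähler manifolds of nonpositive holomorphic sectional
curvature, and for pairs with `K_X + Δ` nef and `κ = ν`

`X` is a compact connected complex manifold with a Kähler metric `w` and a rational SNC boundary `Δ`
(coefficients `1` allowed), `f : X ⇢ Y` is a meromorphic map, holomorphic on the open subset `Z`
(embedded by `j`) of `X`, whose complement has codimension `≥ 2`, and `i : F → Z` is a compact connected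
smooth fibre of `f : Z → Y` (or, more generally, of its Stein factorization), contained in no component
of `Δ`. `k := kodF` is computed with the meromorphic pluricanonical forms of `Y` whose pull-backs to `X`
are tensors with poles at most `m Δ`, and `k ≥ κ(f | Δ)` by (3). The inequality `Ineq` is
`κ(X, K_X + Δ) ≥ κ(F, K_F + Δ|_F) + k`.

1. It holds for all `Δ` and all `f` if the holomorphic sectional curvature of `w` is nonpositive.
2. It holds for all `f` if `K_X + Δ` is nef and `κ(X, K_X + Δ) = ν(X, K_X + Δ)` (`NefAbundant`).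
3. `OrbLe`: `κ(Y, K_Y + Γ) ≤ k` if `Γ` is a rational SNC boundary of `Y` and `f : (Z, Δ|_Z) → (Y, Γ)` is a
   morphism of orbifolds in codimension one, and `κ(f₀ | Δ) ≤ k` for `f₀ : X → Y₀`, where `κ(f₀ | Δ)` is
   Campana's orbifold base dimension, if `f` is given by a neat model of `f₀`.
-/

open scoped Manifold ContDiff
open Vale.Agent.P281.FS

namespace Vale.Agent.Results.P281.NonposHSC

open Vale.Agent.P281.R2.H73 (Ineq NefAbundant)

theorem result {n p d : ℕ} (h1 : 1 ≤ n) (hn : n = p + d) {X Z Y F : Type}
    [TopologicalSpace X] [T2Space X] [CompactSpace X] [ConnectedSpace X] [Mfd n X]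
    [TopologicalSpace Z] [Mfd n Z]
    [TopologicalSpace Y] [T2Space Y] [ConnectedSpace Y] [Mfd p Y]
    [TopologicalSpace F] [T2Space F] [CompactSpace F] [ConnectedSpace F] [Mfd d F]
    (Δ : Set X → ℝ) (j : Z → X) (f : Z → Y) (i : F → Z)
    (hi : Setup (Cm n) (Cm p) (Cm d) Δ j f i) (hinj : Function.Injective i)
    (w : Form n X) (hw : Vale.Agent.P272.K.IsKahler w) :
    (Vale.Agent.P272.K.NonposHSC w → Ineq n p d Δ j f i) ∧
    (NefAbundant n w Δ → Ineq n p d Δ j f i) ∧
    OrbLe (Cm n) (Cm p) Δ j f (kodF n p Δ j f) := by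
  refine ⟨fun hR => Vale.Agent.P281.R2.H877.campana_hsc h1 hn hw hR hi hinj, fun h => ?_,
    orb_of Δ j f i hi⟩
  obtain ⟨m, k, L, t, r, hm, hk, hD, hN, hr, hK, hND⟩ := h
  exact Vale.Agent.P281.R2.H877.campana_kod hn hw hi hinj hD hk hm hN hr hK hND

end Vale.Agent.Results.P281.NonposHSC
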