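import Vale.Agent.P281.R3.H243.Fibre

open Vale.Agent.P281.ToricBundles Vale.Agent.P281.ToricBundles.ToricBundle

/-- Let `f : X → S` be a toric bundle over an arbitrary connected complex manifold `S`: the fibre
`F` is a projective `ℚ`-factorial toric variety with torsion free class group, twisted by arbitrary
line bundles on `S`. Let `Δ` be an effective `ℚ`-divisor on `X` such that `(X, Δ)` is log canonical,
and `B'` an effective `ℚ`-divisor on `S` such that `f^* B' ≤ Δ` (for instance Campana's orbifold
base divisor `B(f, Δ)`, which is the largest one). Then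
`κ(X, K_X + Δ) ≥ κ(F, K_F + Δ|F) + κ(S, K_S + B')`. (The hypothesis `_hK` says that `K` is the
canonical bundle of `S`; the proof does not use it.) -/
theorem Vale.Agent.Results.P281.ToricBundles.result {g n s : ℕ} (S : Base g) (K : LB S)
    (_hK : LB.IsCanonical K) (X : ToricBundle S n s) (B : X.Boundary) (hB : B.IsLogCanonical)
    (Θ : LB S) (θ : S.I → (Fin g → ℂ) → ℂ) (hθ : B.ContainsPullback Θ θ) (a b : ℕ)
    (ha : X.FibreIitakaGE (cls (B.logCanonical K)) a) (hb : LB.IitakaGE (K ^ B.m * Θ) b) :
    IitakaGE (B.logCanonical K) (a + b) := by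
  obtain ⟨h1, σ', hσ', hf⟩ := hθ
  exact main hB (D' := B.bdl * (1, Θ)⁻¹) (by rw [inv_mul_cancel_right]) h1 hσ' hf
    (MonomialGE.of_fibreIitakaGE ha) hb
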